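import Vale.Agent.P241.Final.Low2
import Vale.Agent.P241.EX.Exists
import Vale.Agent.P251.St.Result
import Vale.Agent.P241.H399.ConeG
import Vale.Agent.P241.H132.XaGFC
import Vale.Agent.P241.H891.Final

/-!
# P241: the chromatic Smith problem for finite `p`-groups

For every prime `p`, every finite `p`-group `G`, every `H ≤ G` and every `n` the chromatic fixed
point loss is `r_n(G, H) = ℓ(G, H)`.
-/

open CategoryTheory MonoidalCategory

namespace Vale.Agent.Results.P241.ChromaticSmith

open Vale.Agent.P251.St Vale.Agent.P251.St.SHCat Vale.Agent.P241 Vale.Agent.P241.St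

theorem result : FixFC ∧ (∃ T : SHCat, Nonempty (Susp T)) ∧
    ∀ (T : SHCat) (S : Susp T) (p : ℕ) [Fact p.Prime],
      (∃ K : ℕ → RingA T, ∀ i, IsMoravaK S p i (K i)) ∧ Smith S p := by
  refine ⟨H486.fixFC, nonempty_susp, fun _ S p _ => ?_⟩
  have hL : LowerBound S p := Final.lowerBound_of_cone S p
    (H399.coneG_of_gfc S p (fun _ _ _ _ _ hX hS => H32.gfc_xt hX hS) H132.xaGFC)
  exact ⟨EX.exists_moravaK S p, H891.smith_of_lower S p hL⟩

end Vale.Agent.Results.P241.ChromaticSmith
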